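import Vale.Agent.P199.Field.Deriv

/-!
P199, field module: transcendence bases from tangent spaces, and entrywise extension of derivations.
-/

namespace Vale.P199.Fld

open TrivSqZeroExt

noncomputable section

variable {k : Type} [Field k] [CharZero k] {Om : Type} [Field Om] [Algebra k Om]

/-- A derivation that kills generators kills what is algebraic over the field they generate. -/
theorem der_eq_zero_of_algebraic (d : Derivation k Om Om) {S : Set Om} (hS : ∀ a ∈ S, d a = 0)
    {z : Om} (hz : IsAlgebraic (IntermediateField.adjoin k S) z) : d z = 0 := by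
  have hF : ∀ a ∈ IntermediateField.adjoin k S, d a = 0 := fun a ha => by
    induction ha using IntermediateField.adjoin_induction with
    | mem x hx => exact hS x hx
    | algebraMap r => exact d.map_algebraMap r
    | add x y _ _ hx hy => rw [map_add, hx, hy, add_zero]
    | inv x _ hx => rw [Derivation.leibniz_inv, hx, smul_zero]
    | mul x y _ _ hx hy => rw [d.leibniz, hx, hy, smul_zero, smul_zero, add_zero]
  set F := IntermediateField.adjoin k S
  haveI : CharZero F := charZero_of_injective_algebraMap (algebraMap k F).injective
  set g := minpoly F z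
  have hzi : IsIntegral F z := hz.isIntegral
  have hsep : g.Separable := (minpoly.irreducible hzi).separable
  have h0 : Polynomial.aeval z g = 0 := minpoly.aeval F z
  have h1 : d (Polynomial.aeval z g) = Polynomial.aeval z g.derivative * d z := by
    clear h0 hsep
    induction g using Polynomial.induction_on' with
    | add p q hp hq => simp [hp, hq, add_mul]
    | monomial n a =>
      rw [Polynomial.aeval_monomial, d.leibniz, show d (algebraMap F Om a) = 0 from hF a a.2,
        smul_zero, add_zero, d.leibniz_pow, Polynomial.derivative_monomial, Polynomial.aeval_monomial,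
        map_mul, map_natCast]
      simp only [smul_eq_mul, nsmul_eq_mul]
      ring
  have h2 : Polynomial.aeval z g.derivative ≠ 0 := hsep.aeval_derivative_ne_zero h0
  rw [h0, map_zero] at h1
  exact (mul_eq_zero.1 h1.symm).resolve_left h2

/-- A transcendence basis among the members of a finite family, of the size of its tangent space. -/
theorem exists_basis_of_derImage {ι : Type} [Fintype ι] (c : ι → Om) :
    ∃ s : Finset ι, s.card = Module.finrank Om (derImage k c) ∧
      AlgebraicIndependent k (fun i : s => c i) ∧
      ∀ i, IsAlgebraic (IntermediateField.adjoin k (c '' (s : Set ι))) (c i) := by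
  classical
  obtain ⟨s, hs, hmax⟩ := Finset.exists_max_image
    (Finset.univ.filter fun s : Finset ι => AlgebraicIndependent k (fun i : s => c i)) Finset.card
    ⟨∅, by simp [algebraicIndependent_empty_type_iff, (algebraMap k Om).injective]⟩
  rw [Finset.mem_filter] at hs
  have halg : ∀ i, IsAlgebraic (IntermediateField.adjoin k (c '' (s : Set ι))) (c i) := by
    intro i
    by_cases hi : i ∈ s
    · exact isAlgebraic_algebraMap
        (⟨c i, IntermediateField.subset_adjoin k _ ⟨i, hi, rfl⟩⟩ :
          IntermediateField.adjoin k (c '' (s : Set ι)))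
    by_contra hc
    -- a derivation killing `c '' s` but not `c i` would make `insert i s` independent
    have hind : AlgebraicIndepOn k c ((s : Set ι) : Set ι) := hs.2
    have hnew : AlgebraicIndepOn k c (insert i (s : Set ι)) :=
      (AlgebraicIndepOn.insert_iff (by simpa using hi)).2 ⟨hind, fun h => hc
        (IntermediateField.isAlgebraic_adjoin_iff.2 h)⟩
    have := hmax (insert i s) (Finset.mem_filter.2 ⟨Finset.mem_univ _, by
      rw [← Finset.coe_insert] at hnew
      exact hnew⟩)
    rw [Finset.card_insert_of_notMem hi] at this
    omega
  refine ⟨s, ?_, hs.2, halg⟩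
  let res : derImage k c →ₗ[Om] (s → Om) :=
    (LinearMap.funLeft Om Om (fun i : s => (i : ι))).comp (derImage k c).subtype
  have hinj : Function.Injective res := by
    rw [injective_iff_map_eq_zero]
    rintro ⟨v, hv⟩ h
    obtain ⟨d, hd⟩ := mem_derImage.1 hv
    have hk : ∀ a ∈ c '' (s : Set ι), d a = 0 := by
      rintro _ ⟨j, hj, rfl⟩
      rw [hd]
      exact congrFun h ⟨j, hj⟩
    exact Subtype.ext (funext fun i => (hd i).symm.trans (der_eq_zero_of_algebraic d hk (halg i)))
  have hsur : Function.Surjective res := fun w => by
    obtain ⟨d, hd⟩ := exists_der_of_algebraicIndependent hs.2 w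
    exact ⟨⟨fun i => d (c i), mem_derImage.2 ⟨d, fun _ => rfl⟩⟩, funext hd⟩
  rw [(LinearEquiv.ofBijective res ⟨hinj, hsur⟩).finrank_eq, Module.finrank_fintype_fun_eq_card,
    Fintype.card_coe]

/-- Independent subfamilies are no larger than the tangent space. -/
theorem card_le_finrank_derImage {ι : Type} [Fintype ι] {c : ι → Om} {s : Finset ι}
    (hs : AlgebraicIndependent k (fun i : s => c i)) :
    s.card ≤ Module.finrank Om (derImage k c) := by
  let res : derImage k c →ₗ[Om] (s → Om) :=
    (LinearMap.funLeft Om Om (fun i : s => (i : ι))).comp (derImage k c).subtype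
  have hsur : Function.Surjective res := fun w => by
    obtain ⟨d, hd⟩ := exists_der_of_algebraicIndependent hs w
    exact ⟨⟨fun i => d (c i), mem_derImage.2 ⟨d, fun _ => rfl⟩⟩, funext hd⟩
  have := LinearMap.finrank_le_finrank_of_surjective hsur
  rwa [Module.finrank_fintype_fun_eq_card, Fintype.card_coe] at this

omit [CharZero k] in
/-- A derivation as a homomorphism to dual numbers. -/
def derHom (d : Derivation k Om Om) : Om →+* TrivSqZeroExt Om Om :=
  leibnizHom (RingHom.id Om) (d : Om →+ Om) fun a b => by
    show d (a * b) = a * d b + d a * b
    rw [d.leibniz, smul_eq_mul, smul_eq_mul, mul_comm (d a)]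

omit [CharZero k] in
theorem fst_derHom (d : Derivation k Om Om) (a : Om) : fst (derHom d a) = a := rfl

omit [CharZero k] in
theorem snd_derHom (d : Derivation k Om Om) (a : Om) : snd (derHom d a) = d a := rfl

omit [CharZero k] in
/-- Entrywise derivations of matrices obey the Leibniz rule. -/
theorem map_der_mul {n : Type} [Fintype n] (d : Derivation k Om Om) (A B : Matrix n n Om) :
    (A * B).map d = A.map d * B + A * B.map d := by
  ext i j
  simp only [Matrix.map_apply, Matrix.add_apply, Matrix.mul_apply, map_sum, d.leibniz, smul_eq_mul,
    ← Finset.sum_add_distrib]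
  exact Finset.sum_congr rfl fun x _ => by ring

end

end Vale.P199.Fld
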