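import Vale.Agent.P199.Field.LaurResidue
import Vale.Agent.P199.Field.Trdeg

/-!
P199, field module: a first order motion of the symbols outside the derivation images raises the transcendence degree.
-/

namespace Vale.P199.Fld

noncomputable section

/-- The chain rule in any commutative algebra. -/
theorem der_aeval' {k A ι : Type} [CommRing k] [CommRing A] [Algebra k A] [Fintype ι]
    (d : Derivation k A A) (c : ι → A) (P : MvPolynomial ι k) :
    d (MvPolynomial.aeval c P) = ∑ i, MvPolynomial.aeval c (MvPolynomial.pderiv i P) * d (c i) := by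
  classical
  induction P using MvPolynomial.induction_on with
  | C a => simp
  | add p q hp hq => simp [hp, hq, add_mul, Finset.sum_add_distrib]
  | mul_X p x hp =>
    simp only [map_mul, MvPolynomial.aeval_X, Derivation.leibniz, smul_eq_mul, hp, map_add,
      Finset.mul_sum, add_mul, Finset.sum_add_distrib, MvPolynomial.pderiv_X]
    simp [Pi.single_apply, mul_assoc]

variable {K : Type} [Field K] [CharZero K]

/-- A vector killed by the differentials of all relations between `c` is a derivation image. -/
theorem mem_derImage_of_relations {ι : Type} [Fintype ι] (c v : ι → K)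
    (h : ∀ R : MvPolynomial ι ℚ, MvPolynomial.aeval c R = 0 →
      ∑ i, MvPolynomial.aeval c (MvPolynomial.pderiv i R) * v i = 0) : v ∈ derImage ℚ c := by
  classical
  obtain ⟨s, -, hs, halg⟩ := exists_basis_of_derImage (k := ℚ) c
  obtain ⟨d, hd⟩ := exists_der_of_algebraicIndependent hs fun i => v i
  refine mem_derImage.2 ⟨d, fun i => ?_⟩
  set w : ι → K := fun j => v j - d (c j) with hw
  have hws : ∀ j ∈ s, w j = 0 := fun j hj => by simp [hw, hd ⟨j, hj⟩]
  have hrel : ∀ R : MvPolynomial ι ℚ, MvPolynomial.aeval c R = 0 →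
      ∑ j, MvPolynomial.aeval c (MvPolynomial.pderiv j R) * w j = 0 := fun R hR => by
    have := der_aeval d c R
    rw [hR, map_zero] at this
    simp only [hw, mul_sub, Finset.sum_sub_distrib, h R hR, ← this, sub_self]
  by_cases hi : i ∈ s
  · exact (sub_eq_zero.1 (hws i hi)).symm
  -- a relation of least degree for `c i` over the polynomials in `c` on `s`
  obtain ⟨p₀, hp₀, hp₀'⟩ := IntermediateField.isAlgebraic_adjoin_iff.1 (halg i)
  let S := Algebra.adjoin ℚ (c '' (s : Set ι))
  have hex : ∃ n, ∃ p : Polynomial S, p ≠ 0 ∧ Polynomial.aeval (c i) p = 0 ∧ p.natDegree = n :=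
    ⟨_, p₀, hp₀, hp₀', rfl⟩
  obtain ⟨p, hp, hp', hpn⟩ := Nat.find_spec hex
  have hpos : p.natDegree ≠ 0 := by
    intro h0
    obtain ⟨a, rfl⟩ := Polynomial.natDegree_eq_zero.1 h0
    rw [Polynomial.aeval_C] at hp'
    exact hp (by rw [Subtype.val_injective (a₁ := a) (a₂ := 0) hp', map_zero])
  haveI : CharZero S := charZero_of_injective_algebraMap (algebraMap ℚ S).injective
  have hder : Polynomial.aeval (c i) p.derivative ≠ 0 := fun h0 => by
    refine Nat.find_min hex (m := p.derivative.natDegree) ?_
      ⟨p.derivative, fun hz => hpos (Polynomial.natDegree_eq_zero_of_derivative_eq_zero hz), h0, rfl⟩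
    rw [← hpn]
    exact Polynomial.natDegree_derivative_lt hpos
  -- write it as a polynomial in all the variables
  have hlift : ∀ a : S, ∃ q : MvPolynomial ι ℚ, MvPolynomial.aeval c q = a ∧
      ∀ j, j ∉ s → MvPolynomial.pderiv j q = 0 := fun a => by
    refine Algebra.adjoin_induction (p := fun x _ => ∃ q : MvPolynomial ι ℚ,
      MvPolynomial.aeval c q = x ∧ ∀ j, j ∉ s → MvPolynomial.pderiv j q = 0) ?_ ?_ ?_ ?_ a.2
    · rintro _ ⟨j, hj, rfl⟩
      exact ⟨MvPolynomial.X j, MvPolynomial.aeval_X c j, fun j' hj' =>
        MvPolynomial.pderiv_X_of_ne fun e => hj' (e ▸ hj)⟩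
    · intro r
      exact ⟨MvPolynomial.C r, MvPolynomial.aeval_C c r, fun j _ => MvPolynomial.pderiv_C⟩
    · rintro x y _ _ ⟨qx, hx, hx'⟩ ⟨qy, hy, hy'⟩
      exact ⟨qx + qy, by rw [map_add, hx, hy], fun j hj => by rw [map_add, hx' j hj, hy' j hj, add_zero]⟩
    · rintro x y _ _ ⟨qx, hx, hx'⟩ ⟨qy, hy, hy'⟩
      exact ⟨qx * qy, by rw [map_mul, hx, hy], fun j hj => by
        rw [MvPolynomial.pderiv_mul, hx' j hj, hy' j hj, zero_mul, mul_zero, add_zero]⟩
  choose q hq hq' using hlift
  let R : MvPolynomial ι ℚ :=
    ∑ n ∈ Finset.range (p.natDegree + 1), q (p.coeff n) * MvPolynomial.X i ^ n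
  have hR : MvPolynomial.aeval c R = 0 := by
    rw [← hp', Polynomial.aeval_eq_sum_range]
    simp [R, hq, Algebra.smul_def]
  have hRi : MvPolynomial.aeval c (MvPolynomial.pderiv i R) = Polynomial.aeval (c i) p.derivative := by
    rw [Polynomial.aeval_eq_sum_range' (n := p.natDegree + 1)
      ((Polynomial.natDegree_derivative_le p).trans_lt (by omega))]
    simp only [R, map_sum, MvPolynomial.pderiv_mul, MvPolynomial.pderiv_pow, hq' _ i hi, zero_mul,
      zero_add, map_mul, hq, MvPolynomial.pderiv_X_self, map_one, mul_one, map_natCast, map_pow,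
      MvPolynomial.aeval_X]
    rw [Finset.sum_range_succ' _ p.natDegree, Finset.sum_range_succ _ p.natDegree]
    simp only [Nat.cast_zero, zero_mul, mul_zero, add_zero, Nat.add_sub_cancel,
      Polynomial.coeff_derivative, Polynomial.coeff_eq_zero_of_natDegree_lt (Nat.lt_succ_self _),
      Algebra.smul_def]
    simp only [zero_mul, map_zero, add_zero]
    refine Finset.sum_congr rfl fun m _ => ?_
    simp only [map_mul, map_add, map_natCast, map_one, Nat.cast_add, Nat.cast_one]
    show (p.coeff (m + 1) : K) * _ = (p.coeff (m + 1) : K) * _ * _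
    ring
  have hRj : ∀ j, j ∉ s → j ≠ i → MvPolynomial.pderiv j R = 0 := fun j hj hji => by
    simp only [R, map_sum, MvPolynomial.pderiv_mul, MvPolynomial.pderiv_pow, hq' _ j hj, zero_mul,
      zero_add, MvPolynomial.pderiv_X_of_ne (Ne.symm hji), mul_zero, Finset.sum_const_zero]
  have := hrel R hR
  rw [Finset.sum_eq_single i (fun j _ hji => ?_) (by simp), hRi] at this
  · exact (sub_eq_zero.1 ((mul_eq_zero.1 this).resolve_left hder)).symm
  · by_cases hj : j ∈ s
    · rw [hws j hj, mul_zero]
    · rw [hRj j hj hji, map_zero, zero_mul]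

/-- If no independent family of symbols grows, the first order motion is a derivation image at the residue. -/
theorem deriv_mem_derImage {ι : Type} [Fintype ι] (z : ι → PowerSeries K)
    (hmax : ∀ s : Finset ι, AlgebraicIndependent ℚ (fun i : s => z i) →
      s.card ≤ Module.finrank K (derImage ℚ fun i => PowerSeries.constantCoeff (z i))) :
    (fun i => PowerSeries.coeff 1 (z i)) ∈ derImage ℚ fun i => PowerSeries.constantCoeff (z i) := by
  classical
  set φ : PowerSeries K →ₐ[ℚ] K := RingHom.toRatAlgHom (PowerSeries.constantCoeff (R := K))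
  set c : ι → K := fun i => PowerSeries.constantCoeff (z i)
  obtain ⟨s, hcard, hs, halg⟩ := exists_basis_of_derImage (k := ℚ) c
  have hzs : AlgebraicIndependent ℚ fun i : s => z i := algebraicIndependent_of_residue φ hs
  have hza : ∀ i, IsAlgebraic (Algebra.adjoin ℚ (Set.range fun i : s => z i)) (z i) := fun i => by
    by_contra hc
    have hi : i ∉ s := fun hi => hc (isAlgebraic_algebraMap
      (⟨z i, Algebra.subset_adjoin ⟨⟨i, hi⟩, rfl⟩⟩ : Algebra.adjoin ℚ (Set.range fun i : s => z i)))
    have hr : (Set.range fun i : s => z i) = z '' (s : Set ι) := by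
      ext a
      simp
    have hnew : AlgebraicIndepOn ℚ z (insert i (s : Set ι)) :=
      (AlgebraicIndepOn.insert_iff (by simpa using hi)).2 ⟨hzs, fun h => hc (hr ▸ h)⟩
    rw [← Finset.coe_insert] at hnew
    have := hmax (insert i s) hnew
    rw [Finset.card_insert_of_notMem hi, ← hcard] at this
    omega
  refine mem_derImage_of_relations c _ fun R hR => ?_
  have hlift : MvPolynomial.aeval z R = 0 := by
    have h := relation_lifts φ (fun a ha => isUnit_of_constantCoeff a ha) (t := fun i : s => z i) hs
      (lam := z) hza (MvPolynomial.rename Sum.inr R) (by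
        rw [MvPolynomial.aeval_rename]
        exact hR)
    rwa [MvPolynomial.aeval_rename] at h
  have h2 := der_aeval' ((PowerSeries.derivative K).restrictScalars ℚ) z R
  rw [hlift, map_zero] at h2
  have h3 := congrArg φ h2.symm
  rw [map_zero, map_sum] at h3
  refine (Finset.sum_congr rfl fun i _ => ?_).trans h3
  rw [map_mul, show φ (MvPolynomial.aeval z (MvPolynomial.pderiv i R)) =
    MvPolynomial.aeval c (MvPolynomial.pderiv i R) from MvPolynomial.comp_aeval_apply z φ _]
  congr 1
  show _ = PowerSeries.constantCoeff (PowerSeries.derivative K (z i))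
  rw [← PowerSeries.coeff_zero_eq_constantCoeff_apply, PowerSeries.coeff_derivative]
  simp

open Vale.Agent.P199

/-- Along a step over Laurent series: a first order motion of the first `N` symbols outside the derivation images gives a
larger independent family of symbols. -/
theorem exists_larger_independent {P₁ Q : Pt} (T : Laur P₁ Q) (N : ℕ)
    (h : (fun i : Fin N => (T.eK.symm (Q.c i)).coeff 1) ∉ derImage ℚ fun i : Fin N => P₁.c i) :
    ∃ s : Finset (Fin N), AlgebraicIndependent ℚ (fun i : s => Q.c (i : Fin N)) ∧
      Module.finrank P₁.K (derImage ℚ fun i : Fin N => P₁.c i) < s.card := by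
  by_contra hc
  push Not at hc
  apply h
  have h0 : (fun i : Fin N => PowerSeries.constantCoeff (cser T i)) = fun i : Fin N => P₁.c i :=
    funext fun i => constantCoeff_cser T i
  have hm := deriv_mem_derImage (fun i : Fin N => cser T i) fun s hs => by
    rw [h0]
    refine hc s ?_
    have := hs.map' (f := RingHom.toRatAlgHom (T.eK.toRingHom.comp (HahnSeries.ofPowerSeries ℤ P₁.K)))
      (T.eK.injective.comp HahnSeries.ofPowerSeries_injective)
    convert! this using 1
    funext i
    exact (coe_cser T _).symm
  rw [h0] at hm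
  convert! hm using 1
  funext i
  simp [cser]

end

end Vale.P199.Fld
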