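import Vale.Agent.P199.Stage.Word
import Vale.Agent.P199.Field.Trdeg

/-!
P199, field module: derivations applied to the values of formal polynomials, and the base field.
-/

namespace Vale.P199.Fld

open Vale.Agent.P199

noncomputable section

/-- A map obeying the Leibniz rule differentiates the value of a formal polynomial as `d1` does. -/
theorem leibniz_ev {R : Type} [Ring R] (δ : R →+ R) (hδ : ∀ a b, δ (a * b) = a * δ b + δ a * b)
    (x : Var → R) (p : Poly) : δ (Poly.ev x p) = Poly.d1 x (fun z => δ (x z)) p := by
  induction p using FreeAlgebra.induction with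
  | grade0 n =>
    have h1 : δ 1 = 0 := by
      have h := hδ 1 1
      rw [one_mul, one_mul, mul_one] at h
      exact add_eq_left.1 h.symm
    rw [Poly.d1_int, eq_intCast (algebraMap ℤ Poly), map_intCast, show (n : R) = n • (1 : R) by simp,
      map_zsmul, h1, smul_zero]
  | grade1 z => simp only [show FreeAlgebra.ι ℤ z = Poly.X z from rfl, Poly.ev_X, Poly.d1_X]
  | mul a b ha hb => rw [map_mul, hδ, Poly.d1_mul, ha, hb]
  | add a b ha hb => rw [map_add, map_add, Poly.d1_add, ha, hb]

/-- Entrywise derivations of matrices differentiate values of formal polynomials. -/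
theorem map_der_ev {k Om : Type} [Field k] [Field Om] [Algebra k Om] {n : Type} [Fintype n]
    [DecidableEq n] (d : Derivation k Om Om) (x : Var → Matrix n n Om) (p : Poly) :
    (Poly.ev x p).map d = Poly.d1 x (fun z => (x z).map d) p :=
  leibniz_ev
    { toFun := fun A => A.map d
      map_zero' := Matrix.map_zero _ (map_zero d)
      map_add' := fun A B => Matrix.map_add _ (map_add d) A B }
    (fun A B => (map_der_mul d A B).trans (add_comm _ _)) x p

/-- The base field: algebraic numbers. -/
abbrev Base : Type := AlgebraicClosure ℚ

theorem base_countable : Countable Base := by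
  have : Algebra.IsAlgebraic ℚ Base := by
    convert! AlgebraicClosure.isAlgebraic ℚ
  exact Cardinal.mk_le_aleph0_iff.1 ((Algebra.IsAlgebraic.cardinalMk_le_max ℚ Base).trans
    (max_le (Cardinal.mk_le_aleph0 (α := ℚ)) le_rfl))

theorem base_roots (l : ℕ) [NeZero l] : ∃ ζ : Base, IsPrimitiveRoot ζ l :=
  HasEnoughRootsOfUnity.exists_primitiveRoot Base l

end

end Vale.P199.Fld
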