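import Mathlib

/-!
P199, field module: derivations of the centre extend to a finite dimensional division algebra.

For a central division algebra the map `∑ eₖ ⊗ yₖ ↦ (b ↦ ∑ eₖ b yₖ)` is bijective; the preimage of a linear
projection to the centre is a separability idempotent, which splits the defect of a coefficientwise extension.
-/

namespace Vale.P199.Fld

open Module

noncomputable section

variable {K D : Type} [Field K] [DivisionRing D] [Algebra K D]

/-- Artin's lemma. -/
theorem sum_mul_mul_eq_zero (hK : ∀ d : D, (∀ t, d * t = t * d) → ∃ r : K, algebraMap K D r = d)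
    {ι : Type} (x : ι → D) (hx : LinearIndependent K x) (s : Finset ι) (y : ι → D)
    (h : ∀ b, ∑ k ∈ s, x k * b * y k = 0) : ∀ k ∈ s, y k = 0 := by
  classical
  induction s using Finset.induction generalizing y with
  | empty => simp
  | insert i s hi ih =>
    by_cases hy : y i = 0
    · intro k hk
      rcases Finset.mem_insert.1 hk with rfl | hk
      · exact hy
      · refine ih y (fun b => ?_) k hk
        have := h b
        rwa [Finset.sum_insert hi, hy, mul_zero, zero_add] at this
    exfalso
    let z : ι → D := fun k => y k * (y i)⁻¹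
    have hz : ∀ b, ∑ k ∈ insert i s, x k * b * z k = 0 := fun b => by
      simp only [z, ← mul_assoc, ← Finset.sum_mul, h, zero_mul]
    have hzi : z i = 1 := mul_inv_cancel₀ hy
    have hc : ∀ t, ∀ k ∈ s, t * z k - z k * t = 0 := fun t => ih _ fun b => by
      have h1 := hz (b * t)
      have h2 := congrArg (· * t) (hz b)
      simp only [Finset.sum_mul, zero_mul] at h2
      rw [Finset.sum_insert hi, hzi, mul_one] at h1 h2
      have h3 : ∑ k ∈ s, x k * b * (t * z k - z k * t) =
          ∑ k ∈ s, x k * (b * t) * z k - ∑ k ∈ s, x k * b * z k * t := by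
        rw [← Finset.sum_sub_distrib]
        refine Finset.sum_congr rfl fun k _ => ?_
        simp only [mul_sub, mul_assoc]
      rw [h3, eq_neg_of_add_eq_zero_right h1, eq_neg_of_add_eq_zero_right h2]
      simp [mul_assoc]
    have hr : ∀ k ∈ insert i s, ∃ r : K, algebraMap K D r = z k := fun k hk => by
      rcases Finset.mem_insert.1 hk with rfl | hk
      · exact ⟨1, by rw [map_one, hzi]⟩
      · exact hK _ fun t => (sub_eq_zero.1 (hc t k hk)).symm
    choose! r hr using hr
    have h1 := hz 1
    have : ∑ k ∈ insert i s, r k • x k = 0 := by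
      rw [← h1]
      refine Finset.sum_congr rfl fun k hk => ?_
      rw [mul_one, Algebra.smul_def, ← hr k hk, Algebra.commutes]
    have hri : r i = 0 := linearIndependent_iff'.1 hx _ r this i (Finset.mem_insert_self _ _)
    have := hr i (Finset.mem_insert_self _ _)
    rw [hri, map_zero, hzi] at this
    exact zero_ne_one this

variable [FiniteDimensional K D]

/-- A separability idempotent of a central division algebra, as two families. -/
theorem exists_separability (hK : ∀ d : D, (∀ t, d * t = t * d) → ∃ r : K, algebraMap K D r = d) :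
    ∃ (n : ℕ) (e : Basis (Fin n) K D) (y : Fin n → D), (∑ k, e k * y k = 1) ∧
      ∀ (a : D) (G : D → D →ₗ[K] D), (∀ u v, G (u + v) = G u + G v) → (∀ (r : K) u, G (r • u) = r • G u) →
        ∑ k, a * e k * G (y k) 1 = ∑ k, e k * G (y k * a) 1 := by
  classical
  let e := Module.finBasis K D
  let Φ : (Fin (finrank K D) → D) →ₗ[K] Module.End K D :=
    { toFun := fun y => ∑ k, (LinearMap.mulRight K (y k)).comp (LinearMap.mulLeft K (e k))
      map_add' := fun y z => by
        ext b
        simp [mul_add, Finset.sum_add_distrib]
      map_smul' := fun r y => by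
        ext b
        simp [mul_smul_comm, Finset.smul_sum] }
  have hΦ : ∀ y b, Φ y b = ∑ k, e k * b * y k := fun y b => by simp [Φ]
  have hinj : Function.Injective Φ := by
    rw [injective_iff_map_eq_zero]
    intro y hy
    funext k
    refine sum_mul_mul_eq_zero hK e e.linearIndependent Finset.univ y (fun b => ?_) k
      (Finset.mem_univ k)
    rw [← hΦ, hy, LinearMap.zero_apply]
  have hsurj : Function.Surjective Φ := (LinearMap.injective_iff_surjective_of_finrank_eq_finrank
    (by rw [Module.finrank_pi_fintype, Module.finrank_linearMap]; simp)).1 hinj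
  -- a projection onto the centre
  obtain ⟨φ, hφ⟩ := LinearMap.exists_leftInverse_of_injective (Algebra.linearMap K D)
    (LinearMap.ker_eq_bot.2 (algebraMap K D).injective)
  obtain ⟨y, hy⟩ := hsurj ((Algebra.linearMap K D).comp φ)
  refine ⟨_, e, y, ?_, ?_⟩
  · have := LinearMap.congr_fun hy 1
    rw [hΦ] at this
    simp only [mul_one, LinearMap.comp_apply, Algebra.linearMap_apply] at this
    rw [this, show φ 1 = 1 by simpa using LinearMap.congr_fun hφ 1, map_one]
  · intro a G hGa hGr
    let M : Fin (finrank K D) → Fin (finrank K D) → K := fun j k => e.repr (a * e k) j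
    have hM : ∀ k, a * e k = ∑ j, M j k • e j := fun k => (e.sum_repr (a * e k)).symm
    have hy' : ∀ j, y j * a = ∑ k, M j k • y k := by
      intro j
      refine sub_eq_zero.1 (sum_mul_mul_eq_zero hK e e.linearIndependent Finset.univ
        (fun j => y j * a - ∑ k, M j k • y k) (fun b => ?_) j (Finset.mem_univ j))
      simp only [mul_sub, Finset.sum_sub_distrib, Finset.mul_sum, mul_smul_comm, ← mul_assoc]
      rw [← Finset.sum_mul, Finset.sum_comm]
      have e1 : ∀ k, ∑ j, M j k • (e j * b * y k) = a * e k * b * y k := fun k => by
        rw [hM, Finset.sum_mul, Finset.sum_mul]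
        simp only [smul_mul_assoc]
      simp only [e1, mul_assoc a]
      rw [← Finset.mul_sum]
      have := LinearMap.congr_fun hy b
      rw [hΦ] at this
      simp only [mul_assoc] at this ⊢
      rw [this, LinearMap.comp_apply, Algebra.linearMap_apply, Algebra.commutes, sub_self]
    let G' : D →ₗ[K] D :=
      { toFun := fun u => G u 1
        map_add' := fun u v => by rw [hGa]; rfl
        map_smul' := fun r u => by rw [hGr]; rfl }
    show ∑ k, a * e k * G' (y k) = ∑ k, e k * G' (y k * a)
    simp only [hy', map_sum, map_smul, Finset.mul_sum, mul_smul_comm]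
    rw [Finset.sum_comm (f := fun j k => M j k • (e j * G' (y k)))]
    refine Finset.sum_congr rfl fun k _ => ?_
    rw [hM, Finset.sum_mul]
    simp only [smul_mul_assoc]

/-- Derivations of the centre extend to the algebra. -/
theorem exists_extend_central (hK : ∀ d : D, (∀ t, d * t = t * d) → ∃ r : K, algebraMap K D r = d)
    (δ : K →+ K) (hδ : ∀ r s, δ (r * s) = r * δ s + δ r * s) :
    ∃ δ' : D →+ D, (∀ a b, δ' (a * b) = a * δ' b + δ' a * b) ∧
      ∀ r, δ' (algebraMap K D r) = algebraMap K D (δ r) := by
  classical
  obtain ⟨n, e, y, h1, hsep⟩ := exists_separability hK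
  let δ₀ : D →+ D :=
    { toFun := fun a => ∑ i, δ (e.repr a i) • e i
      map_zero' := by simp
      map_add' := fun a b => by simp [add_smul, Finset.sum_add_distrib] }
  have h0 : ∀ (r : K) a, δ₀ (r • a) = r • δ₀ a + δ r • a := fun r a => by
    show ∑ i, δ (e.repr (r • a) i) • e i = r • ∑ i, δ (e.repr a i) • e i + δ r • a
    conv_rhs => rw [← e.sum_repr a]
    simp only [map_smul, Finsupp.smul_apply, smul_eq_mul, hδ, add_smul, Finset.sum_add_distrib,
      mul_smul, Finset.smul_sum, Basis.repr_self]
    simp [e.sum_repr]
  let c : D → D → D := fun a b => δ₀ (a * b) - a * δ₀ b - δ₀ a * b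
  have cadd1 : ∀ u v b, c (u + v) b = c u b + c v b := fun u v b => by
    simp only [c, add_mul, map_add]
    abel
  have csmul1 : ∀ (r : K) u b, c (r • u) b = r • c u b := fun r u b => by
    simp only [c, smul_mul_assoc, h0, add_mul, smul_sub]
    abel
  have cocycle : ∀ u a b, u * c a b - c (u * a) b + c u (a * b) - c u a * b = 0 := fun u a b => by
    simp only [c, mul_sub, sub_mul, ← mul_assoc]
    abel
  let h : D →+ D :=
    { toFun := fun a => ∑ k, e k * c (y k) a
      map_zero' := by simp [c]
      map_add' := fun a b => by
        simp only [c, mul_add, map_add, ← Finset.sum_add_distrib]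
        exact Finset.sum_congr rfl fun k _ => by simp only [mul_sub, mul_add]; abel }
  have hh : ∀ a b, h (a * b) = a * h b + h a * b - c a b := fun a b => by
    show ∑ k, e k * c (y k) (a * b) = a * ∑ k, e k * c (y k) b + (∑ k, e k * c (y k) a) * b - c a b
    have hG := hsep a (fun u => (LinearMap.toSpanSingleton K D (c u b)).comp
        ((LinearMap.exists_leftInverse_of_injective (Algebra.linearMap K D)
          (LinearMap.ker_eq_bot.2 (algebraMap K D).injective)).choose))
      (fun u v => by ext; simp [cadd1, smul_add]) (fun r u => by ext; simp [csmul1, smul_comm r])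
    have hφ1 : (LinearMap.exists_leftInverse_of_injective (Algebra.linearMap K D)
          (LinearMap.ker_eq_bot.2 (algebraMap K D).injective)).choose 1 = 1 := by
      simpa using LinearMap.congr_fun (LinearMap.exists_leftInverse_of_injective
        (Algebra.linearMap K D) (LinearMap.ker_eq_bot.2 (algebraMap K D).injective)).choose_spec 1
    simp only [LinearMap.comp_apply, hφ1, LinearMap.toSpanSingleton_apply, one_smul] at hG
    have e1 : ∀ k, e k * c (y k) (a * b) =
        e k * c (y k * a) b + e k * c (y k) a * b - e k * y k * c a b := fun k => by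
      have := congrArg (e k * ·) (cocycle (y k) a b)
      simp only [mul_add, mul_sub, mul_zero, ← mul_assoc] at this
      linear_combination (norm := abel) this
    rw [Finset.sum_congr rfl fun k _ => e1 k, Finset.sum_sub_distrib, Finset.sum_add_distrib, ← hG,
      ← Finset.sum_mul _ _ (c a b), h1, one_mul, Finset.mul_sum, Finset.sum_mul]
    simp only [mul_assoc]
  refine ⟨δ₀ + h, fun a b => ?_, fun r => ?_⟩
  · simp only [AddMonoidHom.add_apply, hh, mul_add, add_mul, c]
    abel
  · have hL : ∀ a b, (δ₀ + h) (a * b) = a * (δ₀ + h) b + (δ₀ + h) a * b := fun a b => by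
      simp only [AddMonoidHom.add_apply, hh, mul_add, add_mul, c]
      abel
    have hone : (δ₀ + h) 1 = 0 := by
      have := hL 1 1
      rw [one_mul, one_mul, mul_one] at this
      exact add_eq_left.1 this.symm
    have hlin : ∀ (r : K) (b : D), h (r • b) = r • h b := fun r b => by
      show ∑ k, e k * c (y k) (r • b) = r • ∑ k, e k * c (y k) b
      rw [Finset.smul_sum]
      refine Finset.sum_congr rfl fun k _ => ?_
      rw [← mul_smul_comm]
      congr 1
      simp only [c, mul_smul_comm, h0, mul_add, smul_sub]
      abel
    rw [Algebra.algebraMap_eq_smul_one, AddMonoidHom.add_apply, h0, hlin, add_right_comm,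
      ← smul_add, ← AddMonoidHom.add_apply, hone, smul_zero, zero_add,
      ← Algebra.algebraMap_eq_smul_one]

end

end Vale.P199.Fld
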