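import Vale.Agent.P199.Stage.Pt
import Vale.Agent.P199.Field.Apply
import Vale.Agent.P199.Field.Extend

/-!
P199, field module: derivations of the centre of a point give tangents of its solved rows, so the transcendence degree of
the symbols is bounded by the symbol parts of tangents.
-/

namespace Vale.P199.Fld

open Vale.Agent.P199

noncomputable section

/-- Derivatives of the equation of a guarded row only see the symbols up to that row. -/
theorem d1_eqn_congr {R : Type} [Ring R] (L : Listing) {j : ℕ} (hg : L.Guarded j) (x : Var → R)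
    {u u' : Var → R} (h1 : ∀ a, u (Sum.inl a) = u' (Sum.inl a))
    (h2 : ∀ i < L.b (j + 1), u (Sum.inr i) = u' (Sum.inr i)) :
    Poly.d1 x u (L.eqn j) = Poly.d1 x u' (L.eqn j) := by
  have hb : L.b j ≤ L.b (j + 1) := by rw [L.b_succ]; exact Nat.le_add_right _ _
  have key : ∀ v v' : Var → Matrix (Fin 3) (Fin 3) R, (∀ a, v (Sum.inl a) = v' (Sum.inl a)) →
      (∀ i < L.b (j + 1), v (Sum.inr i) = v' (Sum.inr i)) →
      Poly.ev v (L.eqn j) = Poly.ev v' (L.eqn j) := fun v v' ha hi => by
    simp only [Listing.eqn, map_add, map_pow, map_sum, map_mul, Poly.ev_X,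
      hg v v' ha fun i h => hi i (h.trans_le hb)]
    congr 1
    refine Finset.sum_congr rfl fun i hi' => ?_
    rw [hi (L.b j + i) (by rw [L.b_succ]; exact Nat.add_lt_add_left (Finset.mem_range.1 hi') _)]
  unfold Poly.d1 Poly.jet
  rw [key (fun z => Poly.tri (x z) (u z) (u z) 0) (fun z => Poly.tri (x z) (u' z) (u' z) 0)
    (fun a => by simp only [h1]) fun i hi => by simp only [h2 i hi]]

variable (L : Listing) (P : Pt)

/-- A derivation of the centre gives a tangent of every solved guarded row. -/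
theorem exists_tangent (hK : ∀ d : P.D, (∀ t, d * t = t * d) → ∃ r : P.K, algebraMap P.K P.D r = d)
    {k : Type} [CommRing k] [Algebra k P.K] (δ : Derivation k P.K P.K) : ∃ u : Bool → P.D, ∀ (N j : ℕ), L.b (j + 1) ≤ N → L.Guarded j →
      Poly.ev P.val (L.eqn j) = 0 → P.dEq L N j (u, fun i : Fin N => δ (P.c i)) = 0 := by
  obtain ⟨δ', hδ', hext⟩ := exists_extend_central hK (δ : P.K →+ P.K) fun r s => by
    show δ (r * s) = r * δ s + δ r * s
    rw [δ.leibniz, smul_eq_mul, smul_eq_mul, mul_comm (δ r)]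
  refine ⟨fun a => δ' (P.xy a), fun N j hN hg h0 => ?_⟩
  have h1 := leibniz_ev δ' hδ' P.val (L.eqn j)
  rw [h0, map_zero] at h1
  show Poly.d1 P.val _ (L.eqn j) = 0
  rw [h1]
  refine d1_eqn_congr L hg P.val (fun a => rfl) fun i hi => ?_
  show (if h : i < N then algebraMap P.K P.D (δ (P.c i)) else 0) = δ' (algebraMap P.K P.D (P.c i))
  rw [dif_pos (hi.trans_le hN), hext]
  rfl

/-- The derivation images of the symbols are symbol parts of tangents. -/
theorem derImage_le_tangents {k : Type} [Field k] [Algebra k P.K] (hK : ∀ d : P.D, (∀ t, d * t = t * d) → ∃ r : P.K, algebraMap P.K P.D r = d)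
    {n : ℕ} (r : Rows L n P) (hg : ∀ j < n, L.Guarded j) (hs : P.Solves L n) :
    derImage k (fun i : Fin (L.b n) => P.c i) ≤
      (LinearMap.ker r.Jf).map (LinearMap.snd P.K (Bool → P.D) (Fin (L.b n) → P.K)) := by
  intro v hv
  obtain ⟨δ, hδ⟩ := mem_derImage.1 hv
  obtain ⟨u, hu⟩ := exists_tangent L P hK δ
  refine ⟨(u, v), LinearMap.mem_ker.2 (funext fun j => Subtype.ext ?_), rfl⟩
  have hb : L.b (↑j + 1) ≤ L.b n :=
    monotone_nat_of_le_succ (f := L.b) (fun i => (L.b_succ i).symm ▸ Nat.le_add_right _ _) j.2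
  show r.projF j (P.dEq L (L.b n) j (u, v)) = 0
  rw [show v = fun i : Fin (L.b n) => δ (P.c i) from (funext hδ).symm,
    hu _ _ hb (hg j j.2) (hs j j.2), map_zero]

end

end Vale.P199.Fld
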