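import Mathlib

/-!
P199, field module: residues. Let `φ : O → κ` be a residue map of a domain over a field `k`, where everything with
nonzero residue is a unit. Relations between the residues of algebraic elements lift exactly.
-/

namespace Vale.P199.Fld

noncomputable section

variable {k O κ : Type} [Field k] [CommRing O] [IsDomain O] [Field κ] [Algebra k O] [Algebra k κ]

/-- An element algebraic over a field with zero residue vanishes. -/
theorem eq_zero_of_residue {F : Type} [Field F] [Algebra F O] (φ : O →+* κ) {z : O}
    (hz : IsAlgebraic F z) (h0 : φ z = 0) : z = 0 := by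
  by_contra hne
  have hzi : IsIntegral F z := hz.isIntegral
  have h := congrArg φ (minpoly.aeval F z)
  rw [map_zero, Polynomial.aeval_def, Polynomial.hom_eval₂, h0, Polynomial.eval₂_at_zero] at h
  exact minpoly.coeff_zero_ne_zero hzi hne
    ((map_eq_zero_iff _ (φ.comp (algebraMap F O)).injective).1 h)

/-- Independence lifts from residues. -/
theorem algebraicIndependent_of_residue {ι : Type} (φ : O →ₐ[k] κ) {t : ι → O}
    (ht : AlgebraicIndependent k (φ ∘ t)) : AlgebraicIndependent k t :=
  AlgebraicIndependent.of_comp φ ht

/-- The field generated by elements with independent residues maps into the ring. -/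
def fracHom {ι : Type} (φ : O →ₐ[k] κ) (hunit : ∀ a, φ a ≠ 0 → IsUnit a) {t : ι → O}
    (ht : AlgebraicIndependent k (φ ∘ t)) : FractionRing (MvPolynomial ι k) →+* O :=
  IsLocalization.lift (M := nonZeroDivisors (MvPolynomial ι k)) (g := (MvPolynomial.aeval t).toRingHom)
    fun y => hunit _ fun h => nonZeroDivisors.coe_ne_zero y (ht (by
      rw [map_zero]
      rw [← h]
      exact (MvPolynomial.comp_aeval_apply t φ y).symm))

/-- The residue lemma: relations over `k` between residues of `t` and of elements algebraic over `k(t)`
hold between the elements themselves. -/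
theorem relation_lifts {ι J : Type} (φ : O →ₐ[k] κ) (hunit : ∀ a, φ a ≠ 0 → IsUnit a) {t : ι → O}
    (ht : AlgebraicIndependent k (φ ∘ t)) {lam : J → O}
    (hlam : ∀ j, IsAlgebraic (Algebra.adjoin k (Set.range t)) (lam j))
    (P : MvPolynomial (ι ⊕ J) k) (hP : MvPolynomial.aeval (φ ∘ Sum.elim t lam) P = 0) :
    MvPolynomial.aeval (Sum.elim t lam) P = 0 := by
  let F := FractionRing (MvPolynomial ι k)
  letI : Algebra F O := (fracHom φ hunit ht).toAlgebra
  have hFt : ∀ p : MvPolynomial ι k,
      algebraMap F O (algebraMap _ F p) = MvPolynomial.aeval t p := fun p =>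
    IsLocalization.lift_eq _ p
  have hint : ∀ j, IsIntegral F (lam j) := by
    intro j
    obtain ⟨p, hp0, hp⟩ := hlam j
    have hmem : ∀ a : Algebra.adjoin k (Set.range t), ∃ b : F, algebraMap F O b = a := fun a => by
      obtain ⟨q, hq⟩ := (Algebra.adjoin_range_eq_range_aeval k t).le a.2
      exact ⟨algebraMap _ F q, (hFt q).trans hq⟩
    choose b hb using hmem
    have hmap : (p.map (algebraMap (Algebra.adjoin k (Set.range t)) O)) ∈
        Polynomial.lifts (algebraMap F O) := by
      rw [Polynomial.lifts_iff_coeff_lifts]
      intro n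
      exact ⟨b (p.coeff n), by rw [hb, Polynomial.coeff_map]; rfl⟩
    obtain ⟨p', hp'⟩ := hmap
    refine IsAlgebraic.isIntegral ⟨p', ?_, ?_⟩
    · rintro rfl
      rw [map_zero] at hp'
      exact hp0 (Polynomial.map_eq_zero_iff Subtype.val_injective |>.1 hp'.symm)
    · rw [Polynomial.coe_mapRingHom] at hp'
      rw [Polynomial.aeval_def, ← Polynomial.eval_map, hp', Polynomial.eval_map, ← Polynomial.aeval_def, hp]
  have hall : IsIntegral F (MvPolynomial.aeval (Sum.elim t lam) P) := by
    clear hP; induction P using MvPolynomial.induction_on with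
    | C a =>
      have : algebraMap F O (algebraMap _ F (MvPolynomial.C a : MvPolynomial ι k)) = algebraMap k O a := by
        rw [hFt, MvPolynomial.aeval_C]
      rw [MvPolynomial.aeval_C, ← this]
      exact isIntegral_algebraMap
    | add p q hp hq =>
      rw [map_add]
      exact hp.add hq
    | mul_X p x hp =>
      rw [map_mul, MvPolynomial.aeval_X]
      refine hp.mul ?_
      cases x with
      | inl i =>
        have : algebraMap F O (algebraMap _ F (MvPolynomial.X i : MvPolynomial ι k)) = t i := by
          rw [hFt, MvPolynomial.aeval_X]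
        rw [Sum.elim_inl, ← this]
        exact isIntegral_algebraMap
      | inr j => exact hint j
  refine eq_zero_of_residue (F := F) (φ : O →+* κ) hall.isAlgebraic ?_
  rw [← hP]
  exact MvPolynomial.comp_aeval_apply _ φ P

/-- Power series: nonzero constant coefficient means unit. -/
theorem isUnit_of_constantCoeff {K : Type} [Field K] (a : PowerSeries K)
    (h : PowerSeries.constantCoeff a ≠ 0) : IsUnit a :=
  PowerSeries.isUnit_iff_constantCoeff.2 (isUnit_iff_ne_zero.2 h)

end

end Vale.P199.Fld
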