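import Vale.Agent.P199.Stage.Pt
import Vale.Agent.P199.Field.Residue

/-!
P199, field module: the symbols of a point over Laurent series as power series, and relations that lift from the residue.
Independence and relations are taken over the rational numbers, so any homomorphisms of fields may be used.
-/

namespace Vale.P199.Fld

open Vale.Agent.P199

noncomputable section

/-- Points are of characteristic zero. -/
instance charZero_pt (P : Pt) : CharZero P.K :=
  charZero_of_injective_algebraMap (algebraMap ℂ P.K).injective

variable {P P₁ Q : Pt}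

/-- A symbol of a point over Laurent series, as a power series. -/
def cser (T : Laur P₁ Q) (i : ℕ) : PowerSeries P₁.K :=
  PowerSeries.mk fun n => (T.eK.symm (Q.c i)).coeff (n : ℤ)

theorem coe_cser (T : Laur P₁ Q) (i : ℕ) : T.eK (cser T i : LaurentSeries P₁.K) = Q.c i := by
  rw [← T.eK.eq_symm_apply]
  ext n
  rcases lt_or_ge n 0 with hn | hn
  · rw [T.c_neg i n hn, HahnSeries.ofPowerSeries_apply, HahnSeries.embDomain_of_notMem_range]
    rintro ⟨m, hm⟩
    change (m : ℤ) = n at hm
    omega
  · obtain ⟨m, rfl⟩ := Int.eq_ofNat_of_zero_le hn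
    rw [LaurentSeries.coeff_coe_powerSeries, cser, PowerSeries.coeff_mk]

theorem constantCoeff_cser (T : Laur P₁ Q) (i : ℕ) :
    PowerSeries.constantCoeff (cser T i) = P₁.c i := by
  rw [← PowerSeries.coeff_zero_eq_constantCoeff_apply, cser, PowerSeries.coeff_mk, Nat.cast_zero,
    T.c_zero]

/-- The residue, as a map of rational algebras. -/
def res (P₁ : Pt) : PowerSeries P₁.K →ₐ[ℚ] P₁.K :=
  RingHom.toRatAlgHom (PowerSeries.constantCoeff (R := P₁.K))

theorem res_cser (T : Laur P₁ Q) (i : ℕ) : res P₁ (cser T i) = P₁.c i := constantCoeff_cser T i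

/-- Independent symbols stay independent along a step. -/
theorem step_independent (E : Ext P P₁) (T : Laur P₁ Q) {ι : Type} (f : ι → ℕ)
    (h : AlgebraicIndependent ℚ fun i => P.c (f i)) : AlgebraicIndependent ℚ fun i => Q.c (f i) := by
  have h1 : AlgebraicIndependent ℚ fun i => P₁.c (f i) := by
    have := h.map' (f := RingHom.toRatAlgHom E.iK) E.iK.injective
    simpa [Function.comp_def, E.c_eq] using this
  have h2 : AlgebraicIndependent ℚ fun i => cser T (f i) :=
    algebraicIndependent_of_residue (res P₁) (by simpa [Function.comp_def, res_cser] using h1)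
  have := h2.map'
    (f := RingHom.toRatAlgHom (T.eK.toRingHom.comp (HahnSeries.ofPowerSeries ℤ P₁.K)))
    (T.eK.injective.comp HahnSeries.ofPowerSeries_injective)
  convert! this using 1
  funext i
  exact (coe_cser T (f i)).symm

/-- Relations between independent symbols and integral algebraic elements lift from the residue. -/
theorem relation_step {ι J : Type} (T : Laur P₁ Q) (f : ι → ℕ)
    (ht : AlgebraicIndependent ℚ fun i => P₁.c (f i)) {lam : J → PowerSeries P₁.K}
    (hlam : ∀ j, IsAlgebraic (Algebra.adjoin ℚ (Set.range fun i => cser T (f i))) (lam j))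
    (R : MvPolynomial (ι ⊕ J) ℚ)
    (hR : MvPolynomial.aeval (Sum.elim (fun i => P₁.c (f i)) fun j => res P₁ (lam j)) R = 0) :
    MvPolynomial.aeval (Sum.elim (fun i => cser T (f i)) lam) R = 0 := by
  refine relation_lifts (res P₁) (fun a ha => isUnit_of_constantCoeff a ha) ?_ hlam R ?_
  · simpa [Function.comp_def, res_cser] using ht
  · rw [← hR]
    congr 2
    funext x
    cases x <;> simp [res_cser]

end

end Vale.P199.Fld
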