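import Mathlib

/-!
P199, field module: derivations of fields of characteristic zero and algebraic independence.

Derivations extend along every field extension, and a finite family is algebraically independent exactly when its
derivation images fill the whole coordinate space. So the transcendence degree of finitely generated field
extensions is the dimension of the space of tangents.
-/

namespace Vale.P199.Fld

open TrivSqZeroExt Algebra

noncomputable section

/-- Every field extension in characteristic zero is formally smooth. -/
theorem formallySmooth (F Om : Type) [Field F] [CharZero F] [Field Om] [Algebra F Om] :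
    Algebra.FormallySmooth F Om := by
  obtain ⟨s, hs⟩ := exists_isTranscendenceBasis F Om
  haveI := hs.isAlgebraic_field
  exact .of_algebraicIndependent_of_isSeparable hs.1

variable {k : Type} [Field k] {Om : Type} [Field Om] [Algebra k Om]

/-- A map satisfying the Leibniz rule over `f`, as a homomorphism to square-zero extensions. -/
def leibnizHom {A R : Type} [Semiring A] [CommRing R] (f : A →+* R) (d : A →+ R)
    (hd : ∀ a b, d (a * b) = f a * d b + d a * f b) : A →+* TrivSqZeroExt R R where
  toFun a := (f a, d a)
  map_zero' := TrivSqZeroExt.ext (map_zero f) (map_zero d)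
  map_one' := by
    refine TrivSqZeroExt.ext (map_one f) ?_
    have h := hd 1 1
    simp only [one_mul, map_one, mul_one] at h
    show d 1 = 0
    linear_combination (norm := ring_nf) -h
  map_add' a b := TrivSqZeroExt.ext (map_add f a b) (map_add d a b)
  map_mul' a b := by
    refine TrivSqZeroExt.ext (map_mul f a b) ?_
    show d (a * b) = f a * d b + MulOpposite.op (f b) • d a
    rw [hd, op_smul_eq_mul]

theorem fst_leibnizHom {A R : Type} [Semiring A] [CommRing R] (f : A →+* R) (d : A →+ R) (hd)
    (a : A) : fst (leibnizHom f d hd a) = f a := rfl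

theorem snd_leibnizHom {A R : Type} [Semiring A] [CommRing R] (f : A →+* R) (d : A →+ R) (hd)
    (a : A) : snd (leibnizHom f d hd a) = d a := rfl

/-- The derivation read off from a homomorphism to square-zero extensions. -/
def derOfHom {A : Type} [CommRing A] [Algebra k A] [Algebra A Om] [IsScalarTower k A Om]
    (L : A →+* TrivSqZeroExt Om Om) (hL : ∀ a, fst (L a) = algebraMap A Om a)
    (hk : ∀ r, snd (L (algebraMap k A r)) = 0) : Derivation k A Om :=
  Derivation.mk'
    { toFun := fun a => snd (L a)
      map_add' := fun a b => by rw [map_add, snd_add]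
      map_smul' := fun r a => by
        rw [Algebra.smul_def, map_mul, snd_mul, hL, hL, hk, smul_zero, add_zero,
          ← IsScalarTower.algebraMap_apply k A Om, RingHom.id_apply, Algebra.smul_def r (snd _),
          smul_eq_mul] }
    (fun a b => by
      show snd (L (a * b)) = a • snd (L b) + b • snd (L a)
      rw [map_mul, snd_mul, hL, hL, op_smul_eq_mul, smul_eq_mul, Algebra.smul_def a, Algebra.smul_def b,
        mul_comm (snd _)])

theorem derOfHom_apply {A : Type} [CommRing A] [Algebra k A] [Algebra A Om] [IsScalarTower k A Om]
    (L : A →+* TrivSqZeroExt Om Om) (hL : ∀ a, fst (L a) = algebraMap A Om a)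
    (hk : ∀ r, snd (L (algebraMap k A r)) = 0) (a : A) : derOfHom (k := k) L hL hk a = snd (L a) :=
  rfl

/-- Derivations with values in an extension field extend to it. -/
theorem exists_extend {F : Type} [Field F] [CharZero F] [Algebra k F] [Algebra F Om]
    [IsScalarTower k F Om] (d : Derivation k F Om) :
    ∃ d' : Derivation k Om Om, ∀ a, d' (algebraMap F Om a) = d a := by
  haveI := formallySmooth F Om
  let i : F →+* TrivSqZeroExt Om Om := leibnizHom (algebraMap F Om) (d : F →+ Om) fun a b => by
    show d (a * b) = algebraMap F Om a * d b + d a * algebraMap F Om b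
    rw [d.leibniz, Algebra.smul_def, Algebra.smul_def, mul_comm (d a)]
  letI : Algebra F (TrivSqZeroExt Om Om) := i.toAlgebra
  let g : TrivSqZeroExt Om Om →ₐ[F] Om :=
    { (fstHom ℤ Om Om).toRingHom with
      commutes' := fun a => rfl }
  have hg : Function.Surjective g := fun a => ⟨inl a, fst_inl Om a⟩
  have hker : IsNilpotent (RingHom.ker (g : TrivSqZeroExt Om Om →+* Om)) := by
    refine ⟨2, ?_⟩
    rw [Submodule.zero_eq_bot, eq_bot_iff, show ∀ I : Ideal (TrivSqZeroExt Om Om), I ^ 2 = I * I from
      fun I => by rw [pow_succ, pow_one], Ideal.mul_le]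
    intro r hr t ht
    have hr' : fst r = 0 := hr
    have ht' : fst t = 0 := ht
    rw [Ideal.mem_bot]
    ext <;> simp [hr', ht']
  let L := FormallySmooth.liftOfSurjective (AlgHom.id F Om) g hg hker
  have hfst : ∀ a, fst (L a) = a :=
    FormallySmooth.liftOfSurjective_apply (AlgHom.id F Om) g hg hker
  have hF : ∀ a, snd (L (algebraMap F Om a)) = d a := fun a => by
    rw [L.commutes]
    rfl
  refine ⟨derOfHom (L : Om →+* TrivSqZeroExt Om Om) hfst fun r => ?_, hF⟩
  rw [RingHom.coe_coe, IsScalarTower.algebraMap_apply k F Om, hF, d.map_algebraMap]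

variable (k) in
/-- Derivation images of a family. -/
def derImage {ι : Type} (c : ι → Om) : Submodule Om (ι → Om) where
  carrier := Set.range fun d : Derivation k Om Om => fun i => d (c i)
  zero_mem' := ⟨0, funext fun i => by simp⟩
  add_mem' := by
    rintro _ _ ⟨d, rfl⟩ ⟨e, rfl⟩
    exact ⟨d + e, funext fun i => by simp⟩
  smul_mem' := by
    rintro r _ ⟨d, rfl⟩
    exact ⟨r • d, funext fun i => by simp⟩

theorem mem_derImage {ι : Type} {c : ι → Om} {v : ι → Om} :
    v ∈ derImage k c ↔ ∃ d : Derivation k Om Om, ∀ i, d (c i) = v i :=
  ⟨fun ⟨d, hd⟩ => ⟨d, congrFun hd⟩, fun ⟨d, hd⟩ => ⟨d, funext hd⟩⟩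

variable [CharZero k]

/-- On algebraically independent elements derivations take arbitrary values. -/
theorem exists_der_of_algebraicIndependent {ι : Type} {c : ι → Om}
    (hc : AlgebraicIndependent k c) (v : ι → Om) :
    ∃ d : Derivation k Om Om, ∀ i, d (c i) = v i := by
  let f : MvPolynomial ι k →ₐ[k] Om := MvPolynomial.aeval c
  let F := FractionRing (MvPolynomial ι k)
  letI : Algebra (MvPolynomial ι k) Om := f.toRingHom.toAlgebra
  letI : Algebra F Om := (IsFractionRing.lift (K := F) hc : F →+* Om).toAlgebra
  haveI : IsScalarTower (MvPolynomial ι k) F Om :=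
    .of_algebraMap_eq fun p => (IsFractionRing.lift_algebraMap (K := F) hc p).symm
  haveI : IsScalarTower k F Om := .of_algebraMap_eq fun r => by
    rw [IsScalarTower.algebraMap_apply k (MvPolynomial ι k) F,
      ← IsScalarTower.algebraMap_apply (MvPolynomial ι k) F Om]
    exact (f.commutes r).symm
  haveI : CharZero F := charZero_of_injective_algebraMap
    (algebraMap k F).injective
  haveI : IsScalarTower k (MvPolynomial ι k) Om := .of_algebraMap_eq fun r => (f.commutes r).symm
  haveI := Algebra.FormallyEtale.of_isLocalization (R := MvPolynomial ι k)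
    (Rₘ := F) (nonZeroDivisors (MvPolynomial ι k))
  let d₀ : Derivation k (MvPolynomial ι k) Om := MvPolynomial.mkDerivation k v
  -- extend to the field of fractions through square-zero extensions
  let i : MvPolynomial ι k →+* TrivSqZeroExt Om Om :=
    leibnizHom f.toRingHom (d₀ : MvPolynomial ι k →+ Om) fun a b => by
      show d₀ (a * b) = f a * d₀ b + d₀ a * f b
      rw [d₀.leibniz, Algebra.smul_def, Algebra.smul_def, mul_comm (d₀ a)]
      rfl
  have hunit : ∀ y : nonZeroDivisors (MvPolynomial ι k), IsUnit (i y) := fun y => by
    rw [TrivSqZeroExt.isUnit_iff_isUnit_fst]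
    have : fst (i y) = f y := rfl
    rw [this]
    exact isUnit_iff_ne_zero.2 fun h => nonZeroDivisors.coe_ne_zero y (hc (by simpa [f] using h))
  let j : F →+* TrivSqZeroExt Om Om := IsLocalization.lift hunit
  have hj : ∀ p, j (algebraMap _ F p) = i p := IsLocalization.lift_eq hunit
  have hjf : ∀ a, fst (j a) = algebraMap F Om a := by
    intro a
    have : ((fstHom ℤ Om Om).toRingHom.comp j) = algebraMap F Om := by
      refine IsLocalization.ringHom_ext (nonZeroDivisors (MvPolynomial ι k)) (RingHom.ext fun p => ?_)
      show fst (j (algebraMap _ F p)) = algebraMap F Om (algebraMap _ F p)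
      rw [hj, ← IsScalarTower.algebraMap_apply (MvPolynomial ι k) F Om]
      rfl
    exact RingHom.congr_fun this a
  have hjk : ∀ r : k, snd (j (algebraMap k F r)) = 0 := fun r => by
    rw [IsScalarTower.algebraMap_apply k (MvPolynomial ι k) F, hj]
    exact d₀.map_algebraMap r
  let d₁ : Derivation k F Om := derOfHom j hjf hjk
  obtain ⟨d, hd⟩ := exists_extend d₁
  refine ⟨d, fun x => ?_⟩
  have e : algebraMap F Om (algebraMap (MvPolynomial ι k) F (MvPolynomial.X x)) = c x := by
    rw [← IsScalarTower.algebraMap_apply (MvPolynomial ι k) F Om]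
    exact MvPolynomial.aeval_X c x
  rw [← e, hd]
  show snd (j _) = _
  rw [hj]
  exact MvPolynomial.mkDerivation_X k v x

omit [CharZero k] in
/-- The chain rule for polynomials. -/
theorem der_aeval {ι : Type} [Fintype ι] (d : Derivation k Om Om) (c : ι → Om)
    (P : MvPolynomial ι k) :
    d (MvPolynomial.aeval c P) = ∑ i, MvPolynomial.aeval c (MvPolynomial.pderiv i P) * d (c i) := by
  classical
  induction P using MvPolynomial.induction_on with
  | C a => simp
  | add p q hp hq => simp [hp, hq, add_mul, Finset.sum_add_distrib]
  | mul_X p x hp =>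
    simp only [map_mul, MvPolynomial.aeval_X, Derivation.leibniz, smul_eq_mul, hp, map_add,
      Finset.mul_sum, add_mul, Finset.sum_add_distrib, MvPolynomial.pderiv_X]
    simp [Pi.single_apply, Finset.sum_ite_eq', mul_assoc]

/-- If derivation images fill everything, the family is algebraically independent. -/
theorem algebraicIndependent_of_der {ι : Type} [Fintype ι] {c : ι → Om}
    (h : ∀ v : ι → Om, ∃ d : Derivation k Om Om, ∀ i, d (c i) = v i) :
    AlgebraicIndependent k c := by
  classical
  rw [algebraicIndependent_iff]
  suffices ∀ n, ∀ P : MvPolynomial ι k, P.totalDegree ≤ n → MvPolynomial.aeval c P = 0 → P = 0 from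
    fun P hP => this _ P le_rfl hP
  intro n
  induction n with
  | zero =>
    intro P hdeg hP
    rw [MvPolynomial.totalDegree_eq_zero_iff_eq_C.1 (Nat.le_zero.1 hdeg)] at hP ⊢
    simpa using hP
  | succ n ih =>
    intro P hdeg hP
    have hz : ∀ i, MvPolynomial.pderiv i P = 0 := fun i => by
      refine ih _ ?_ ?_
      · refine Finset.sup_le fun m hm => ?_
        rw [MvPolynomial.mem_support_iff, MvPolynomial.coeff_pderiv] at hm
        have := Finset.le_sup (f := fun m : ι →₀ ℕ => m.sum fun _ e => e)
          (MvPolynomial.mem_support_iff.2 (left_ne_zero_of_mul hm))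
        change (m + Finsupp.single i 1).sum (fun _ e => e) ≤ P.totalDegree at this
        rw [Finsupp.sum_add_index' (fun _ => rfl) (fun _ _ _ => rfl), Finsupp.sum_single_index rfl]
          at this
        omega
      · obtain ⟨d, hd⟩ := h (Pi.single i 1)
        have := der_aeval d c P
        simp [hP, hd, Pi.single_apply] at this
        exact this.symm
    have hC : P = MvPolynomial.C (MvPolynomial.constantCoeff P) := by
      refine MvPolynomial.ext _ _ fun m => ?_
      by_cases hm : m = 0
      · subst hm; simp [MvPolynomial.constantCoeff_eq]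
      · obtain ⟨i, hi⟩ := Finsupp.ne_iff.1 hm
        have h1 := congrArg (MvPolynomial.coeff (m - Finsupp.single i 1)) (hz i)
        rw [MvPolynomial.coeff_pderiv, MvPolynomial.coeff_zero] at h1
        have e : m - Finsupp.single i 1 + Finsupp.single i 1 = m :=
          tsub_add_cancel_of_le (Finsupp.single_le_iff.2 (Nat.one_le_iff_ne_zero.2 (by simpa using hi) : 1 ≤ m i))
        rw [e] at h1
        have hne : ((((m - Finsupp.single i 1 : ι →₀ ℕ) i) + 1 : ℕ) : k) ≠ 0 := Nat.cast_ne_zero.2 (by omega)
        rw [MvPolynomial.coeff_C, if_neg (Ne.symm hm)]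
        push_cast at hne
        exact (mul_eq_zero.1 h1).resolve_right hne
    rw [hC] at hP ⊢
    simpa using hP

/-- Algebraic independence by derivations. -/
theorem algebraicIndependent_iff_der {ι : Type} [Fintype ι] {c : ι → Om} :
    AlgebraicIndependent k c ↔ derImage k c = ⊤ := by
  rw [Submodule.eq_top_iff']
  exact ⟨fun h v => mem_derImage.2 (exists_der_of_algebraicIndependent h v),
    fun h => algebraicIndependent_of_der fun v => mem_derImage.1 (h v)⟩

end

end Vale.P199.Fld
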